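import Vale.Agent.P302.H831.Frac
import Vale.Agent.P302.H877.Final
import Vale.Agent.P302.H794.URec

/-!
# Bin packing instances with `OPT - LP` close to `3/2`
-/

namespace Vale.Agent.P302.Half

open Vale.Agent.P302 Vale.Agent.P302.Tags

/-- a problem of exact patterns with deficiency `V - T` gives bin packing instances with
`OPT - LP ≥ 1 + (r (V - T) - 1) / (4 r + 1)`, for every large value of `OPT` -/
theorem gap_of_udef (r : ℕ) {T : ℕ} {V : ℚ} (hU : UDef T V) :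
    ∃ K : ℕ, ∀ k : ℕ, K ≤ k → ∃ I : List ℚ, IsInstance I ∧ OPT I = k ∧
      1 + (r * ((V : ℝ) - T) - 1) / (4 * r + 1) ≤ (OPT I : ℝ) - LP I := by
  obtain ⟨X, Y, qU, W, hqU, hU1, hU2, hU3⟩ := hU
  obtain ⟨Φ, hΦ⟩ := exists_bound (X + Y)
  obtain ⟨N, hN⟩ : ∃ N, N = pN r X Y + r * (X.card + Y.card) := ⟨_, rfl⟩
  obtain ⟨U, hUdef⟩ : ∃ U, U + pN r X Y = (4 * r + 1) * N + r * T + 1 := by
    refine ⟨(4 * r + 1) * N + r * T + 1 - pN r X Y, Nat.sub_add_cancel ?_⟩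
    have : N ≤ (4 * r + 1) * N := Nat.le_mul_of_pos_left _ (by omega)
    omega
  have hUge : (4 * r + 1) * (r * (X.card + Y.card)) ≤ U := by
    have h1 : (4 * r + 1) * N =
        (4 * r + 1) * pN r X Y + (4 * r + 1) * (r * (X.card + Y.card)) := by rw [hN]; ring
    have h2 : pN r X Y ≤ (4 * r + 1) * pN r X Y := Nat.le_mul_of_pos_left _ (by omega)
    omega
  have hnot : ¬ Packable (inst (LL r Φ) ((lst r X Y U).map (size (BB r Φ)))) N :=
    lower hΦ hU1 (by omega)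
  obtain ⟨v, z, hz1, hz2, hv⟩ := upper hΦ hqU hU2 hUge
  have hI : IsInstance (inst (LL r Φ) ((lst r X Y U).map (size (BB r Φ)))) :=
    isInstance_inst (LL_pos r Φ) (sizes_ok hΦ)
  generalize inst (LL r Φ) ((lst r X Y U).map (size (BB r Φ))) = I₀ at hnot hz1 hI
  have hopt := opt_ge hI hnot
  obtain ⟨m, hm⟩ : ∃ m, OPT I₀ = m + 1 := ⟨OPT I₀ - 1, by omega⟩
  have hp1 : Packable I₀ (m + 1) := by
    rw [← hm]
    exact Nat.sInf_mem (s := {k | Packable I₀ k}) ⟨_, packable_length hI⟩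
  have hp2 : ¬ Packable I₀ m := by
    intro h
    have : OPT I₀ ≤ m := Nat.sInf_le h
    omega
  have hNm : N ≤ m := by omega
  refine ⟨m + 1, fun k hk => ?_⟩
  obtain ⟨J, hJ1, hJ2, hJ3⟩ := family hI hp1 hp2 ⟨z, hz1, rfl⟩ (k - (m + 1))
  have hk' : m + (k - (m + 1)) + 1 = k := by omega
  rw [hk'] at hJ2
  refine ⟨J, hJ1, hJ2, ?_⟩
  rw [← hz2] at hJ3
  have hk2 : ((k - (m + 1) : ℕ) : ℝ) = (k : ℝ) - (m + 1) := by
    rw [Nat.cast_sub hk]
    push_cast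
    ring
  rw [hk2] at hJ3
  rw [hJ2]
  have hq0 : (0 : ℝ) < (4 * r + 1) := by positivity
  have hqU' : (0 : ℝ) < qU := by exact_mod_cast hqU
  have hNm' : (N : ℝ) ≤ m := by exact_mod_cast hNm
  have e3 : (W.card : ℝ) = qU * V := by exact_mod_cast congrArg (fun x : ℚ => (x : ℝ)) hU3
  have e4 : (v : ℝ) + r * W.card = qU * ((4 * r + 1) * N + r * T + 1) := by
    have := congrArg (fun x : ℕ => (x : ℝ)) hv
    rw [hUdef] at this
    push_cast at this
    exact this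
  rw [e3] at e4
  have hvq : (v : ℝ) / ((4 * r + 1) * qU : ℕ) =
      (N + 1) - (1 + (r * ((V : ℝ) - T) - 1) / (4 * r + 1)) := by
    push_cast
    field_simp
    linear_combination e4
  rw [hvq] at hJ3
  linarith

/-- for every `ε > 0` and every large `k` there is an instance with `OPT = k` and
`OPT - LP > 3/2 - ε` -/
theorem gap_three_halves (ε : ℝ) (hε : 0 < ε) : ∃ K : ℕ, ∀ k : ℕ, K ≤ k →
    ∃ I : List ℚ, IsInstance I ∧ OPT I = k ∧ 3 / 2 - ε < (OPT I : ℝ) - LP I := by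
  obtain ⟨δ, hδ0, hδ⟩ := exists_rat_btwn hε
  have hδ0' : 0 < δ := by exact_mod_cast hδ0
  obtain ⟨T, V, h1, h2⟩ := udef_limit δ hδ0'
  obtain ⟨r, hr⟩ := exists_nat_gt (3 / ε)
  obtain ⟨K, hK⟩ := gap_of_udef r h1
  refine ⟨K, fun k hk => ?_⟩
  obtain ⟨I, hI1, hI2, hI3⟩ := hK k hk
  refine ⟨I, hI1, hI2, lt_of_lt_of_le ?_ hI3⟩
  have h2' : (2 : ℝ) - δ < (V : ℝ) - T := by exact_mod_cast h2
  have hr0 : (0 : ℝ) < r := lt_trans (by positivity) hr
  have h3 : 3 < ε * r := by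
    rw [div_lt_iff₀ hε] at hr
    linarith
  have h4 : (r : ℝ) * (2 - δ) ≤ r * ((V : ℝ) - T) := mul_le_mul_of_nonneg_left h2'.le hr0.le
  have hq0 : (0 : ℝ) < (4 * r + 1) := by positivity
  have h5 : 1 / 2 - ε < (r * ((V : ℝ) - T) - 1) / (4 * r + 1) := by
    rw [lt_div_iff₀ hq0]
    nlinarith
  linarith

end Vale.Agent.P302.Half
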