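import Vale.Agent.P302.H831.Upper

/-!
# The outer node with `r` gadgets: the fractional solution
-/

namespace Vale.Agent.P302.Half

open Vale.Agent.P302

variable {r : ℕ}

/-- the exact bins of the gadget `g` -/
def exs (g : Fin r) (W : Multiset (ℤ × ℤ × ℤ)) : Multiset (Multiset (Kind r × ℤ)) :=
  W.map (exact g)

theorem join_exs (g : Fin r) (W : Multiset (ℤ × ℤ × ℤ)) :
    (exs g W).join =
      (W.map (fun t => t.1) + W.map (fun t => t.2.1)).map (fun x => (some (g, false), x)) +
        (W.map (fun t => t.2.2)).map (fun y => (some (g, true), y)) := by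
  unfold exs
  induction W using Multiset.induction with
  | empty => simp
  | cons t W ih =>
    rw [Multiset.map_cons, Multiset.join_cons, ih]
    unfold exact
    simp only [Multiset.map_cons, Multiset.map_add, Multiset.map_map, Function.comp_def]
    simp only [← Multiset.singleton_add]
    abel

theorem join_exs_le (g : Fin r) {X Y : Multiset ℤ} {Q : ℕ} {W : Multiset (ℤ × ℤ × ℤ)}
    (h : UPack (Q • X) (Q • Y) W) : (exs g W).join ≤ Q • gad X Y g := by
  rw [join_exs, gad, nsmul_add, ← Multiset.map_nsmul, ← Multiset.map_nsmul]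
  exact add_le_add (Multiset.map_le_map h.2.1) (Multiset.map_le_map h.2.2)

theorem join_sum (s : Finset (Fin r)) (f : Fin r → Multiset (Multiset (Kind r × ℤ))) :
    (∑ g ∈ s, f g).join = ∑ g ∈ s, (f g).join := by
  induction s using Finset.induction_on with
  | empty => simp
  | insert g s hg ih => rw [Finset.sum_insert hg, Finset.sum_insert hg, Multiset.join_add, ih]

theorem card_sum (s : Finset (Fin r)) (f : Fin r → Multiset (Multiset (Kind r × ℤ))) :
    (∑ g ∈ s, f g).card = ∑ g ∈ s, (f g).card := by
  induction s using Finset.induction_on with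
  | empty => simp
  | insert g s hg ih => rw [Finset.sum_insert hg, Finset.sum_insert hg, Multiset.card_add, ih]

/-- all exact bins -/
def allEx (r : ℕ) (W : Multiset (ℤ × ℤ × ℤ)) : Multiset (Multiset (Kind r × ℤ)) :=
  ∑ g : Fin r, exs g W

theorem card_allEx (W : Multiset (ℤ × ℤ × ℤ)) : (allEx r W).card = r * W.card := by
  unfold allEx
  rw [card_sum]
  simp [exs]

theorem allEx_le {X Y : Multiset ℤ} {Q : ℕ} {W : Multiset (ℤ × ℤ × ℤ)}
    (h : UPack (Q • X) (Q • Y) W) : (allEx r W).join ≤ Q • ∑ g : Fin r, gad X Y g := by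
  unfold allEx
  rw [join_sum, Finset.smul_sum]
  exact Finset.sum_le_sum (fun g _ => join_exs_le g h)

theorem price_allEx (W : Multiset (ℤ × ℤ × ℤ)) :
    price (allEx r W).join = (4 * r + 2) * (r * W.card) := by
  rw [price_join]
  have : ∀ M ∈ allEx r W, price M = 4 * r + 2 := by
    intro M hM
    unfold allEx at hM
    rw [Multiset.mem_sum] at hM
    obtain ⟨g, _, hM⟩ := hM
    unfold exs at hM
    obtain ⟨t, _, rfl⟩ := Multiset.mem_map.1 hM
    exact price_exact g t
  rw [Multiset.map_congr rfl this, Multiset.map_const', Multiset.sum_replicate, card_allEx,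
    smul_eq_mul]
  ring

/-- one item together with sand -/
def fill (i : Kind r × ℤ) : Multiset (Kind r × ℤ) :=
  i ::ₘ Multiset.replicate (4 * r + 1 - lev i.1) sand

theorem join_fill (R : Multiset (Kind r × ℤ)) :
    ∃ s, (R.map fill).join = R + Multiset.replicate s sand ∧
      s + price R = (4 * r + 1) * R.card := by
  induction R using Multiset.induction with
  | empty => exact ⟨0, by simp, by simp [price]⟩
  | cons i R ih =>
    obtain ⟨s, h1, h2⟩ := ih
    refine ⟨s + (4 * r + 1 - lev i.1), ?_, ?_⟩
    · rw [Multiset.map_cons, Multiset.join_cons, h1, fill, Multiset.replicate_add,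
        ← Multiset.singleton_add, ← Multiset.singleton_add]
      abel
    · have h3 : price (i ::ₘ R) = lev i.1 + price R := by
        unfold price
        rw [Multiset.map_cons, Multiset.sum_cons]
      have h4 := lev_le i.1
      rw [h3, Multiset.card_cons, mul_add, ← h2]
      omega

theorem join_rep (n q : ℕ) :
    (Multiset.replicate n (Multiset.replicate q (sand (r := r)))).join =
      Multiset.replicate (n * q) sand := by
  induction n with
  | zero => simp
  | succ n ih =>
    rw [Multiset.replicate_succ, Multiset.join_cons, ih, ← Multiset.replicate_add]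
    congr 1
    ring

theorem tot_cons (B : ℤ) (i : Kind r × ℤ) (M : Multiset (Kind r × ℤ)) :
    tot B (i ::ₘ M) = mac i.1 * B + i.2 + tot B M := by
  unfold tot
  rw [Multiset.map_cons, Multiset.sum_cons]

theorem tot_rep (B : ℤ) (n : ℕ) :
    tot B (Multiset.replicate n (sand (r := r))) = n * mac (none : Kind r) * B := by
  unfold tot
  rw [Multiset.map_replicate, Multiset.sum_replicate]
  simp only [sand, nsmul_eq_mul]
  ring

theorem tot_exact {B : ℤ} (g : Fin r) (t : ℤ × ℤ × ℤ) (ht : t.1 + t.2.1 + t.2.2 ≤ 0) :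
    tot B (exact g t) ≤ cap r * B := by
  have e : tot B (exact g t) = (2 * mac (some (g, false)) + mac (some (g, true))) * B +
      (t.1 + t.2.1 + t.2.2) := by
    unfold tot exact
    simp only [Multiset.map_add, Multiset.map_singleton, Multiset.sum_add,
      Multiset.sum_singleton]
    ring
  rw [e, two_mac]
  linarith

theorem tot_fill {B Φ : ℤ} (hB : 0 ≤ B) (hΦ : Φ ≤ B) (i : Kind r × ℤ) (hi : i.2 ≤ Φ) :
    tot B (fill i) ≤ cap r * B := by
  unfold fill
  rw [tot_cons, tot_rep]
  have h := pat_macro i.1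
  have h2 := mul_le_mul_of_nonneg_right h hB
  nlinarith

theorem tot_sandbin {B : ℤ} (hB : 0 ≤ B) :
    tot B (Multiset.replicate (4 * r + 1) (sand (r := r))) ≤ cap r * B := by
  rw [tot_rep]
  have h := pat_macro (none : Kind r)
  have h1 : ((4 * r + 1 - lev (none : Kind r) : ℕ) : ℤ) = 4 * r := by
    simp [lev]
  rw [h1] at h
  have h2 := mul_le_mul_of_nonneg_right h hB
  push_cast
  nlinarith

section

variable {X Y : Multiset ℤ} {U Φ : ℕ}

theorem card_gad (X Y : Multiset ℤ) :
    (∑ g : Fin r, gad X Y g).card = r * (X.card + Y.card) := by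
  have : ∀ s : Finset (Fin r), (∑ g ∈ s, gad X Y g).card = s.card * (X.card + Y.card) := by
    intro s
    induction s using Finset.induction_on with
    | empty => simp
    | insert g s hg ih =>
      rw [Finset.sum_insert hg, Multiset.card_add, ih, Finset.card_insert_of_notMem hg]
      simp only [gad, Multiset.card_add, Multiset.card_map]
      ring
  rw [this, Finset.card_univ, Fintype.card_fin]

/-- the fractional solution -/
theorem upper (h : ∀ x ∈ X + Y, -(Φ : ℤ) ≤ x ∧ x ≤ Φ) {qU : ℕ} (hq : 0 < qU)
    {W : Multiset (ℤ × ℤ × ℤ)} (hW : UPack (qU • X) (qU • Y) W)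
    (hU : (4 * r + 1) * (r * (X.card + Y.card)) ≤ U) :
    ∃ (v : ℕ) (z : _), IsLPSolution (inst (LL r Φ) ((lst r X Y U).map (size (BB r Φ)))) z ∧
      (v : ℝ) / ((4 * r + 1) * qU : ℕ) = z.sum (fun _ w => w) ∧
      v + r * W.card = qU * (U + pN r X Y) := by
  obtain ⟨q, hqdef⟩ : ∃ q, q = 4 * r + 1 := ⟨_, rfl⟩
  obtain ⟨Q, hQ⟩ : ∃ Q, Q = q * qU := ⟨_, rfl⟩
  have hW' : UPack (Q • X) (Q • Y) (q • W) := by
    have := Node.UPack.nsmul hW q
    rwa [← mul_nsmul', ← mul_nsmul', ← hQ] at this
  obtain ⟨R, hR⟩ := Multiset.le_iff_exists_add.1 (allEx_le (r := r) hW')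
  have hRc : R.card ≤ Q * (r * (X.card + Y.card)) := by
    have := congrArg Multiset.card hR
    rw [Multiset.card_nsmul, card_gad, Multiset.card_add] at this
    omega
  obtain ⟨s, hs1, hs2⟩ := join_fill R
  have hpR : Q * pN r X Y = (q + 1) * (r * (q * W.card)) + price R := by
    have := congrArg price hR
    rw [price_nsmul, price_add, price_allEx, Multiset.card_nsmul] at this
    rw [hqdef] at this ⊢
    exact this
  -- the number of sand bins
  have hsz : s ≤ q * R.card := by rw [hqdef]; omega
  obtain ⟨N0, hN0⟩ : ∃ N0 : ℕ, s + N0 * q = Q * U := by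
    have hdvd : q ∣ s := by
      have h1 : s + (Q * pN r X Y) = q * R.card + (q + 1) * (r * (q * W.card)) := by
        rw [hpR, hqdef]
        rw [← hs2]
        ring
      have h2 : q ∣ s + Q * pN r X Y := by
        rw [h1]
        exact Dvd.dvd.add ⟨_, rfl⟩ ⟨(q + 1) * (r * W.card), by ring⟩
      exact (Nat.dvd_add_left ⟨qU * pN r X Y, by rw [hQ]; ring⟩).1 h2
    obtain ⟨s', hs'⟩ := hdvd
    have hle : s' ≤ qU * U := by
      have h1 : q * s' ≤ q * R.card := by rw [← hs']; exact hsz
      have h2 : s' ≤ R.card := Nat.le_of_mul_le_mul_left h1 (by omega)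
      refine h2.trans (hRc.trans ?_)
      rw [← hqdef] at hU
      rw [hQ]
      calc q * qU * (r * (X.card + Y.card)) = qU * (q * (r * (X.card + Y.card))) := by ring
        _ ≤ qU * U := Nat.mul_le_mul_left _ hU
    refine ⟨qU * U - s', ?_⟩
    rw [hs', hQ]
    zify [hle]
    ring
  set P : Multiset (Multiset (Kind r × ℤ)) := allEx r (q • W) + R.map fill +
    Multiset.replicate N0 (Multiset.replicate (4 * r + 1) sand) with hP
  have hjoin : P.join = Q • items r X Y U := by
    rw [hP, Multiset.join_add, Multiset.join_add, hs1, join_rep, items, nsmul_add, hR,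
      Multiset.nsmul_replicate, ← hN0, hqdef, Multiset.replicate_add]
    abel
  have hmem : ∀ M ∈ P, ∀ i ∈ M, i ∈ items r X Y U := by
    intro M hM i hi
    have : i ∈ P.join := Multiset.mem_join.2 ⟨M, hM, hi⟩
    rw [hjoin] at this
    exact Multiset.mem_of_mem_nsmul this
  have hB := BB_pos r Φ
  have hΦB := Phi_lt (r := r) (Φ := Φ)
  have htot : ∀ M ∈ P, tot (BB r Φ) M ≤ cap r * BB r Φ := by
    intro M hM
    have hM' := hM
    rw [hP] at hM
    simp only [Multiset.mem_add] at hM
    rcases hM with (hM | hM) | hM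
    · unfold allEx at hM
      rw [Multiset.mem_sum] at hM
      obtain ⟨g, _, hM⟩ := hM
      unfold exs at hM
      obtain ⟨t, ht, rfl⟩ := Multiset.mem_map.1 hM
      exact tot_exact g t (hW'.1 t ht)
    · obtain ⟨i, hi, rfl⟩ := Multiset.mem_map.1 hM
      have h1 := item_bd h i (hmem _ hM' i (by simp [fill]))
      exact tot_fill hB.le hΦB.le i h1.2
    · rw [Multiset.eq_of_mem_replicate hM]
      exact tot_sandbin hB.le
  have hQ0 : 0 < Q := by
    rw [hQ]
    exact Nat.mul_pos (by omega) hq
  obtain ⟨z, hz1, hz2⟩ := Node.sol_of_pats (LL_pos r Φ) (size (BB r Φ)) (lst r X Y U) hQ0 P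
    (fun p hp => ⟨fun i hi => by
      have := hmem p hp i hi
      rw [← lst_coe] at this
      exact this, (sum_iff h p (hmem p hp)).2 (htot p hp)⟩) (by rw [lst_coe, hjoin])
  refine ⟨P.card, z, hz1, ?_, ?_⟩
  · rw [← hqdef, ← hQ]
    exact hz2
  · have hc : P.card = r * (q * W.card) + R.card + N0 := by
      rw [hP, Multiset.card_add, Multiset.card_add, card_allEx, Multiset.card_nsmul,
        Multiset.card_map, Multiset.card_replicate]
    rw [hc]
    have hq0 : 0 < q := by omega
    have hs2' : s + price R = q * R.card := by rw [hqdef]; exact hs2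
    refine Nat.eq_of_mul_eq_mul_left hq0 ?_
    have h1 : q * (qU * (U + pN r X Y)) = Q * U + Q * pN r X Y := by rw [hQ]; ring
    rw [h1, ← hN0, hpR]
    have h2 : q * (r * (q * W.card) + R.card + N0 + r * W.card) =
      (q + 1) * (r * (q * W.card)) + q * R.card + N0 * q := by ring
    rw [h2, ← hs2']
    ring

end

end Vale.Agent.P302.Half
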