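import Mathlib

/-!
# The outer node with `r` gadgets: the macro sizes

The macro capacity is `A (A - 1) m`, `A = 4 r + 2`.  The levels of the kinds are `2 g + 1` and
`4 (r - g)` for the two kinds of the `g`-th gadget, and `1` for sand.  A bin has level sum at most
`A - 1 = 4 r + 1`, or it consists of two `x`-items and one `y`-item of the same gadget.
-/

namespace Vale.Agent.P302.Half

/-- the kinds of items: `some (g, false)` and `some (g, true)` are the `x`- and the `y`-items of the
`g`-th gadget, `none` is sand -/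
abbrev Kind (r : ℕ) := Option (Fin r × Bool)

/-- the level of a kind -/
def lev {r : ℕ} : Kind r → ℕ
  | none => 1
  | some (g, false) => 2 * g + 1
  | some (g, true) => 4 * (r - g)

/-- `A = 4 r + 2` -/
def AA (r : ℕ) : ℤ := 4 * r + 2

/-- the coarsest unit -/
def mm (r : ℕ) : ℤ := 4 * AA r ^ 3

/-- the macro capacity -/
def cap (r : ℕ) : ℤ := AA r * (AA r - 1) * mm r

/-- the correction of the macro size of level `l` -/
def del (r : ℕ) (g : ℕ) (t : Bool) : ℤ :=
  if t then AA r ^ 2 * (AA r - 3 * (4 * (r - g))) - 2 * (2 * g + 1) ^ 2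
  else AA r ^ 2 * (AA r - 3 * (2 * g + 1)) + (2 * g + 1) ^ 2

/-- the macro sizes -/
def mac {r : ℕ} : Kind r → ℤ
  | none => AA r * mm r - 1
  | some (g, t) => (lev (some (g, t)) : ℤ) * ((AA r - 1) * mm r) + del r g t

variable {r : ℕ}

theorem AA_pos : 2 ≤ AA r := by unfold AA; omega

theorem lev_pos (i : Kind r) : 1 ≤ lev i := by
  rcases i with _ | ⟨g, _ | _⟩
  · exact le_refl _
  · simp [lev]
  · have := g.2
    simp only [lev]
    omega

theorem del_lower (g : Fin r) (t : Bool) :
    2 * AA r ^ 3 - AA r ^ 2 - 6 * AA r ^ 2 * (lev (some (g, t)) : ℤ) ≤ 2 * del r g t := by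
  have hg := g.2
  cases t
  · simp only [lev, del, Bool.false_eq_true, if_false]
    push_cast
    nlinarith [sq_nonneg (AA r), sq_nonneg (2 * (g : ℤ) + 1)]
  · simp only [lev, del, if_true]
    have e : ((r - (g : ℕ) : ℕ) : ℤ) = (r : ℤ) - (g : ℕ) := by
      rw [Nat.cast_sub hg.le]
    push_cast
    rw [e]
    have h1 : (2 * (2 * (g : ℤ) + 1)) ^ 2 ≤ AA r ^ 2 := by
      have h2 : (g : ℤ) < r := by exact_mod_cast hg
      have h3 : (0 : ℤ) ≤ g := by positivity
      unfold AA
      nlinarith
    nlinarith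

theorem del_upper (g : Fin r) (t : Bool) : del r g t ≤ AA r ^ 3 := by
  have hg := g.2
  have h2 : (g : ℤ) < r := by exact_mod_cast hg
  have h3 : (0 : ℤ) ≤ g := by positivity
  have hA := AA_pos (r := r)
  cases t
  · simp only [del, Bool.false_eq_true, if_false]
    have h4 : (2 * (g : ℤ) + 1) ≤ AA r := by unfold AA; linarith
    have h5 : (2 * (g : ℤ) + 1) ^ 2 ≤ AA r * (2 * g + 1) := by nlinarith
    have h6 : AA r * (2 * (g : ℤ) + 1) ≤ AA r ^ 2 * (2 * g + 1) := by nlinarith
    nlinarith
  · simp only [del, if_true]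
    have h4 : (0 : ℤ) ≤ (r : ℤ) - g := by linarith
    have h5 : 0 ≤ AA r ^ 2 * ((r : ℤ) - g) := by positivity
    nlinarith [sq_nonneg (2 * (g : ℤ) + 1)]

theorem mac_lower (i : Kind r) : (lev i : ℤ) * ((AA r - 1) * mm r - 3 * AA r ^ 2) ≤ mac i := by
  have hA := AA_pos (r := r)
  rcases i with _ | ⟨g, t⟩
  · simp only [lev, mac]
    have hm : 0 ≤ mm r := by unfold mm; positivity
    push_cast
    have : 1 ≤ mm r + 3 * AA r ^ 2 := by nlinarith
    linarith
  · have h1 := del_lower g t
    simp only [mac]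
    have h2 : 0 ≤ 2 * AA r ^ 3 - AA r ^ 2 := by
      have : AA r ^ 2 ≤ AA r ^ 3 := by nlinarith [sq_nonneg (AA r)]
      have h3 : 0 ≤ AA r ^ 3 := by positivity
      linarith
    linarith

theorem base_pos : 1 ≤ (AA r - 1) * mm r - 3 * AA r ^ 2 := by
  have hA := AA_pos (r := r)
  unfold mm
  have h1 : 1 ≤ AA r ^ 2 := by nlinarith
  have h2 : 2 * AA r ^ 2 ≤ AA r ^ 3 := by
    have : AA r ^ 3 = AA r ^ 2 * AA r := by ring
    rw [this]
    nlinarith
  have h3 : 4 * AA r ^ 3 ≤ (AA r - 1) * (4 * AA r ^ 3) := by nlinarith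
  linarith

theorem mac_pos (i : Kind r) : 1 ≤ mac i := by
  have h1 := mac_lower i
  have h2 := base_pos (r := r)
  have h3 : (1 : ℤ) ≤ lev i := by exact_mod_cast lev_pos i
  nlinarith

theorem sum_mac_lower (S : Multiset (Kind r)) :
    (((S.map lev).sum : ℕ) : ℤ) * ((AA r - 1) * mm r - 3 * AA r ^ 2) ≤ (S.map mac).sum := by
  induction S using Multiset.induction with
  | empty => simp
  | cons i S ih =>
    have := mac_lower i
    rw [Multiset.map_cons, Multiset.map_cons, Multiset.sum_cons, Multiset.sum_cons, Nat.cast_add,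
      add_mul]
    exact add_le_add this ih

/-- the gadget items of a bin of level `A` -/
theorem key_gadget (S : Multiset (Fin r × Bool)) (hlev : ((S.map fun i => lev (some i)).sum : ℕ) = 4 * r + 2)
    (h : (S.map fun i => mac (some i)).sum ≤ cap r) :
    ∃ g, S = {(g, false)} + {(g, false)} + {(g, true)} := by
  have hA := AA_pos (r := r)
  have hsum : ∀ S : Multiset (Fin r × Bool), (S.map fun i => mac (some i)).sum =
      (((S.map fun i => lev (some i)).sum : ℕ) : ℤ) * ((AA r - 1) * mm r) +
        (S.map fun i => del r i.1 i.2).sum := by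
    intro S
    induction S using Multiset.induction with
    | empty => simp
    | cons i S ih =>
      rw [Multiset.map_cons, Multiset.map_cons, Multiset.map_cons, Multiset.sum_cons,
        Multiset.sum_cons, Multiset.sum_cons, Nat.cast_add, ih]
      simp only [mac]
      ring
  have hd : (S.map fun i => del r i.1 i.2).sum ≤ 0 := by
    have h1 := hsum S
    rw [hlev] at h1
    have : ((4 * r + 2 : ℕ) : ℤ) = AA r := by unfold AA; push_cast; ring
    rw [this] at h1
    unfold cap at h
    linarith
  -- at most three items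
  have hcard : S.card ≤ 3 := by
    by_contra hcon
    have h1 : ∀ S : Multiset (Fin r × Bool), (S.card : ℤ) * (2 * AA r ^ 3 - AA r ^ 2) -
        6 * AA r ^ 2 * (((S.map fun i => lev (some i)).sum : ℕ) : ℤ) ≤
          2 * (S.map fun i => del r i.1 i.2).sum := by
      intro S
      induction S using Multiset.induction with
      | empty => simp
      | cons i S ih =>
        have := del_lower i.1 i.2
        simp only [Multiset.map_cons, Multiset.sum_cons, Nat.cast_add, Multiset.card_cons,
          Nat.cast_one]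
        linarith
    have h2 := h1 S
    rw [hlev] at h2
    have e : ((4 * r + 2 : ℕ) : ℤ) = AA r := by unfold AA; push_cast; ring
    rw [e] at h2
    have h3 : (4 : ℤ) ≤ S.card := by exact_mod_cast (by omega : 4 ≤ S.card)
    have h4 : 0 < AA r ^ 2 := by positivity
    have h5 : AA r ^ 3 = AA r ^ 2 * AA r := by ring
    have h6 : 0 ≤ 2 * AA r ^ 3 - AA r ^ 2 := by rw [h5]; nlinarith
    have h7 : 4 * (2 * AA r ^ 3 - AA r ^ 2) ≤ (S.card : ℤ) * (2 * AA r ^ 3 - AA r ^ 2) := by
      nlinarith
    have hA' : 6 ≤ AA r ∨ r = 0 := by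
      unfold AA
      rcases Nat.eq_zero_or_pos r with h | h
      · exact Or.inr h
      · left
        have : (1 : ℤ) ≤ r := by exact_mod_cast h
        linarith
    rcases hA' with hA' | hr
    · have h8 : 6 * AA r ^ 2 * AA r = 6 * AA r ^ 3 := by ring
      rw [h8] at h2
      have h9 : 4 * AA r ^ 2 < 2 * AA r ^ 3 := by rw [h5]; nlinarith
      linarith
    · subst hr
      have : S = 0 := by
        apply Multiset.eq_zero_of_forall_notMem
        rintro ⟨g, _⟩ _
        exact g.elim0
      subst this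
      simp at hlev
  -- the two kinds
  obtain ⟨F, T, hFT, hF, hT⟩ : ∃ F T : Multiset (Fin r), S = F.map (fun g => (g, false)) +
      T.map (fun g => (g, true)) ∧ True ∧ True := by
    refine ⟨(S.filter (fun i => i.2 = false)).map Prod.fst,
      (S.filter (fun i => ¬ i.2 = false)).map Prod.fst, ?_, trivial, trivial⟩
    rw [Multiset.map_map, Multiset.map_map]
    have e1 : ((S.filter (fun i => i.2 = false)).map ((fun g => (g, false)) ∘ Prod.fst)) =
        S.filter (fun i => i.2 = false) := by
      conv_rhs => rw [← Multiset.map_id (S.filter (fun i => i.2 = false))]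
      refine Multiset.map_congr rfl (fun i hi => ?_)
      have := (Multiset.mem_filter.1 hi).2
      ext <;> simp [this]
    have e2 : ((S.filter (fun i => ¬ i.2 = false)).map ((fun g => (g, true)) ∘ Prod.fst)) =
        S.filter (fun i => ¬ i.2 = false) := by
      conv_rhs => rw [← Multiset.map_id (S.filter (fun i => ¬ i.2 = false))]
      refine Multiset.map_congr rfl (fun i hi => ?_)
      have := (Multiset.mem_filter.1 hi).2
      ext <;> simp [this]
    rw [e1, e2, Multiset.filter_add_not]
  clear hF hT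
  subst hFT
  simp only [Multiset.map_add, Multiset.map_map, Function.comp_def, Multiset.sum_add,
    Multiset.card_add, Multiset.card_map, lev, del] at hlev hd hcard
  simp only [Bool.false_eq_true, if_false, if_true] at hd
  have hFs : (F.map fun g : Fin r => 2 * (g : ℕ) + 1).sum = 2 * (F.map fun g : Fin r => (g : ℕ)).sum
      + F.card := by
    rw [Multiset.sum_map_add, Multiset.sum_map_mul_left]
    simp
  have hTs : (T.map fun g : Fin r => 4 * (r - (g : ℕ))).sum =
      4 * (T.map fun g : Fin r => (r - (g : ℕ))).sum := by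
    rw [Multiset.sum_map_mul_left]
  have hFc : F.card = 2 := by
    rcases Nat.eq_zero_or_pos F.card with h0 | h0
    · rw [Multiset.card_eq_zero] at h0
      subst h0
      simp only [Multiset.map_zero, Multiset.sum_zero] at hlev
      omega
    · omega
  obtain ⟨g₁, g₂, rfl⟩ := Multiset.card_eq_two.1 hFc
  have hg1 := g₁.2
  have hg2 := g₂.2
  have hTc : T.card = 1 := by
    rcases Nat.eq_zero_or_pos T.card with h0 | h0
    · rw [Multiset.card_eq_zero] at h0
      subst h0
      simp at hlev
      omega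
    · omega
  obtain ⟨g₃, rfl⟩ := Multiset.card_eq_one.1 hTc
  have hg3 := g₃.2
  simp at hlev hd
  have h12 : (g₁ : ℕ) + g₂ = 2 * g₃ := by omega
  have h12' : (g₁ : ℤ) + g₂ = 2 * g₃ := by exact_mod_cast h12
  have hsq : ((g₁ : ℤ) - g₂) ^ 2 ≤ 0 := by
    have e : (g₃ : ℤ) = (g₁ + g₂) / 2 := by omega
    have h3 : 4 * (2 * (g₃ : ℤ) + 1) ^ 2 = (2 * g₁ + 1 + (2 * g₂ + 1)) ^ 2 := by
      have : 2 * (2 * (g₃ : ℤ) + 1) = 2 * g₁ + 1 + (2 * g₂ + 1) := by linarith
      rw [← this]; ring
    have h4 : AA r ^ 2 * (AA r - 3 * (2 * (g₁ : ℤ) + 1)) + AA r ^ 2 * (AA r - 3 * (2 * (g₂ : ℤ) + 1))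
        + AA r ^ 2 * (AA r - 3 * (4 * ((r : ℤ) - g₃))) = 0 := by
      have : (4 * ((r : ℤ) - g₃)) = AA r - (2 * g₁ + 1) - (2 * g₂ + 1) := by
        unfold AA
        linarith
      rw [this]; ring
    nlinarith
  have heq : (g₁ : ℤ) = g₂ := by nlinarith [sq_nonneg ((g₁ : ℤ) - g₂)]
  have h1 : g₁ = g₂ := by
    apply Fin.ext
    exact_mod_cast heq
  subst h1
  have h3 : g₃ = g₁ := by
    apply Fin.ext
    omega
  subst h3
  exact ⟨g₃, by simp⟩

end Vale.Agent.P302.Half
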