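import Vale.Agent.P302.H831.Kinds
import Vale.Agent.P302.H794.Tagged
import Vale.Agent.P302.H794.UProb

/-!
# The outer node with `r` gadgets: the lower bound for the number of bins
-/

namespace Vale.Agent.P302.Half

open Vale.Agent.P302

variable {r : ℕ}

/-- a bin whose macro size is at most the macro capacity has level at most `A - 1` or is a gadget -/
theorem key (S : Multiset (Kind r)) (h : (S.map mac).sum ≤ cap r) :
    (S.map lev).sum ≤ 4 * r + 1 ∨
      ∃ g, S = {some (g, false)} + {some (g, false)} + {some (g, true)} := by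
  have hA := AA_pos (r := r)
  have hb := base_pos (r := r)
  by_cases hlev : (S.map lev).sum ≤ 4 * r + 1
  · exact Or.inl hlev
  right
  have h1 := sum_mac_lower S
  have hA3 : 2 * AA r ^ 2 ≤ AA r ^ 3 := by
    have : AA r ^ 3 = AA r ^ 2 * AA r := by ring
    rw [this]
    nlinarith [sq_nonneg (AA r)]
  have hA2 : 2 * AA r ≤ AA r ^ 2 := by nlinarith
  have hcast : ((4 * r + 2 : ℕ) : ℤ) = AA r := by unfold AA; push_cast; ring
  have hle : (S.map lev).sum ≤ 4 * r + 2 := by
    by_contra hcon
    have h2 : (AA r + 1 : ℤ) ≤ ((S.map lev).sum : ℕ) := by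
      rw [← hcast]
      exact_mod_cast (by omega : 4 * r + 2 + 1 ≤ (S.map lev).sum)
    have h3 : (AA r + 1) * ((AA r - 1) * mm r - 3 * AA r ^ 2) ≤ cap r :=
      (mul_le_mul_of_nonneg_right h2 (by linarith)).trans (h1.trans h)
    unfold cap mm at h3
    have h4 : (AA r - 1) * (4 * AA r ^ 3) ≤ (AA r + 1) * (3 * AA r ^ 2) := by linarith
    have h5 : AA r ^ 3 = AA r ^ 2 * AA r := by ring
    rw [h5] at h4
    have h6 : AA r ^ 2 * (4 * (AA r - 1) * AA r) ≤ AA r ^ 2 * (3 * (AA r + 1)) := by linarith
    have h7 : 4 * (AA r - 1) * AA r ≤ 3 * (AA r + 1) := le_of_mul_le_mul_left h6 (by positivity)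
    have hA6 : 6 ≤ AA r ∨ r = 0 := by
      unfold AA
      rcases Nat.eq_zero_or_pos r with h | h
      · exact Or.inr h
      · left
        have : (1 : ℤ) ≤ r := by exact_mod_cast h
        linarith
    rcases hA6 with hA6 | hr
    · nlinarith
    · subst hr
      -- all items are sand
      have hS : ∀ S : Multiset (Kind 0), (S.map mac).sum = (S.card : ℤ) * (AA 0 * mm 0 - 1) ∧
          (S.map lev).sum = S.card := by
        intro S
        induction S using Multiset.induction with
        | empty => simp
        | cons i S ih =>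
          rcases i with _ | ⟨g, _⟩
          · rw [Multiset.map_cons, Multiset.map_cons, Multiset.sum_cons, Multiset.sum_cons, ih.1,
              ih.2, Multiset.card_cons]
            simp only [mac, lev]
            push_cast
            constructor
            · ring
            · ring
          · exact g.elim0
      obtain ⟨e1, e2⟩ := hS S
      rw [e1] at h
      rw [e2] at hcon
      have h8 : (3 : ℤ) ≤ S.card := by exact_mod_cast (by omega : 3 ≤ S.card)
      have e3 : AA 0 = 2 := by simp [AA]
      have e4 : mm 0 = 32 := by simp [mm, e3]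
      have e5 : cap 0 = 64 := by simp [cap, e3, e4]
      rw [e3, e4, e5] at h
      linarith
  have heq : (S.map lev).sum = 4 * r + 2 := by omega
  -- no sand
  have hnone : none ∉ S := by
    intro hmem
    obtain ⟨S', rfl⟩ := Multiset.exists_cons_of_mem hmem
    have h2 := sum_mac_lower S'
    rw [Multiset.map_cons, Multiset.sum_cons] at h heq
    have h3 : (S'.map lev).sum = 4 * r + 1 := by
      have : lev (none : Kind r) = 1 := rfl
      omega
    rw [h3] at h2
    have e : ((4 * r + 1 : ℕ) : ℤ) = AA r - 1 := by unfold AA; push_cast; ring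
    rw [e] at h2
    have e2 : mac (none : Kind r) = AA r * mm r - 1 := rfl
    rw [e2] at h
    have h4 : AA r * mm r - 1 + (AA r - 1) * ((AA r - 1) * mm r - 3 * AA r ^ 2) ≤ cap r := by
      linarith
    unfold cap at h4
    have h5 : mm r ≤ 1 + (AA r - 1) * (3 * AA r ^ 2) := by linarith
    unfold mm at h5
    have h6 : (AA r - 1) * (3 * AA r ^ 2) = 3 * AA r ^ 3 - 3 * AA r ^ 2 := by ring
    rw [h6] at h5
    nlinarith
  obtain ⟨S', rfl⟩ : ∃ S' : Multiset (Fin r × Bool), S = S'.map some := by
    clear h h1 hlev hle heq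
    induction S using Multiset.induction with
    | empty => exact ⟨0, rfl⟩
    | cons i S ih =>
      obtain ⟨S', hS'⟩ := ih (fun h => hnone (Multiset.mem_cons_of_mem h))
      rcases i with _ | i
      · exact absurd (Multiset.mem_cons_self _ _) hnone
      · exact ⟨i ::ₘ S', by rw [Multiset.map_cons, hS']⟩
  rw [Multiset.map_map] at h heq
  obtain ⟨g, rfl⟩ := key_gadget S' heq h
  exact ⟨g, by simp⟩

/-- total size of a bin in fine units -/
def tot (B : ℤ) (M : Multiset (Kind r × ℤ)) : ℤ := (M.map (fun i => mac i.1 * B + i.2)).sum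

theorem tot_eq (B : ℤ) (M : Multiset (Kind r × ℤ)) :
    tot B M = ((M.map Prod.fst).map mac).sum * B + (M.map (fun i => i.2)).sum := by
  unfold tot
  rw [Multiset.sum_map_add, Multiset.map_map, Multiset.sum_map_mul_right]
  rfl

theorem sum_lower {Φ : ℤ} (M : Multiset (Kind r × ℤ)) (h : ∀ i ∈ M, -Φ ≤ i.2) :
    -(M.card : ℤ) * Φ ≤ (M.map (fun i => i.2)).sum := by
  induction M using Multiset.induction with
  | empty => simp
  | cons i M ih =>
    have h1 := ih (fun j hj => h j (by simp [hj]))
    have h2 := h i (by simp)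
    rw [Multiset.map_cons, Multiset.sum_cons, Multiset.card_cons]
    push_cast
    linarith

theorem card_le_mac (S : Multiset (Kind r)) : (S.card : ℤ) ≤ (S.map mac).sum := by
  induction S using Multiset.induction with
  | empty => simp
  | cons i S ih =>
    have := mac_pos i
    rw [Multiset.map_cons, Multiset.sum_cons, Multiset.card_cons]
    push_cast
    linarith

/-- the level sum of a bin -/
def price (M : Multiset (Kind r × ℤ)) : ℕ := (M.map (fun i => lev i.1)).sum

theorem price_add (M N : Multiset (Kind r × ℤ)) : price (M + N) = price M + price N := by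
  unfold price
  rw [Multiset.map_add, Multiset.sum_add]

theorem two_mac (g : Fin r) : 2 * mac (some (g, false)) + mac (some (g, true)) = cap r := by
  have hg := g.2
  have e : ((r - (g : ℕ) : ℕ) : ℤ) = (r : ℤ) - (g : ℕ) := by rw [Nat.cast_sub hg.le]
  simp only [mac, lev, del, Bool.false_eq_true, if_false, if_true]
  push_cast
  rw [e]
  unfold cap AA
  ring

/-- the items of an exact bin of the gadget `g` -/
def exact (g : Fin r) (t : ℤ × ℤ × ℤ) : Multiset (Kind r × ℤ) :=
  {(some (g, false), t.1)} + {(some (g, false), t.2.1)} + {(some (g, true), t.2.2)}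

theorem bin_cases {B Φ : ℤ} (hΦ : 0 ≤ Φ) (hB : (cap r + 1) * Φ < B) (M : Multiset (Kind r × ℤ))
    (h : ∀ i ∈ M, -Φ ≤ i.2) (ht : tot B M ≤ cap r * B) :
    price M ≤ 4 * r + 1 ∨ ∃ (g : Fin r) (t : ℤ × ℤ × ℤ), M = exact g t ∧ t.1 + t.2.1 + t.2.2 ≤ 0 := by
  have hlow := sum_lower M h
  have hcard := card_le_mac (M.map Prod.fst)
  rw [Multiset.card_map] at hcard
  have ht' := ht
  rw [tot_eq] at ht'
  have hcap : 0 ≤ cap r := by
    have hA := AA_pos (r := r)
    unfold cap mm
    have : 0 ≤ AA r - 1 := by linarith
    positivity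
  have hs : ((M.map Prod.fst).map mac).sum ≤ cap r := by
    by_contra hcon
    generalize ((M.map Prod.fst).map mac).sum = s at *
    have h1 : s * B ≤ cap r * B + (M.card : ℤ) * Φ := by linarith
    have h2 : (M.card : ℤ) * Φ ≤ s * Φ := mul_le_mul_of_nonneg_right hcard hΦ
    have h3 : s * (B - Φ) ≤ cap r * B := by linarith
    have h4 : cap r + 1 ≤ s := by linarith [not_le.1 hcon]
    have h5 : 0 ≤ B - Φ := by nlinarith
    have h6 : (cap r + 1) * (B - Φ) ≤ s * (B - Φ) := mul_le_mul_of_nonneg_right h4 h5
    nlinarith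
  rcases key (M.map Prod.fst) hs with h1 | ⟨g, h1⟩
  · left
    rw [Multiset.map_map] at h1
    exact h1
  · right
    have h2 : M.map Prod.fst = some (g, false) ::ₘ some (g, false) ::ₘ {some (g, true)} := by
      rw [h1]; rfl
    obtain ⟨⟨i1, x⟩, hi, hi1, h3⟩ := (Multiset.map_eq_cons _ _ _ _).2 h2
    obtain ⟨⟨j1, x'⟩, hj, hj1, h4⟩ := (Multiset.map_eq_cons _ _ _ _).2 h3
    obtain ⟨⟨k1, y⟩, h5, hk1⟩ := Multiset.map_eq_singleton.1 h4
    simp only at hi1 hj1 hk1
    subst hi1 hj1 hk1
    have hM : M = exact g (x, x', y) := by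
      rw [← Multiset.cons_erase hi, ← Multiset.cons_erase hj, h5]
      rfl
    refine ⟨g, (x, x', y), hM, ?_⟩
    subst hM
    have e : tot B (exact g (x, x', y)) = (2 * mac (some (g, false)) + mac (some (g, true))) * B +
        (x + x' + y) := by
      unfold tot exact
      simp only [Multiset.map_add, Multiset.map_singleton, Multiset.sum_add,
        Multiset.sum_singleton]
      ring
    rw [e, two_mac] at ht
    simp only
    linarith

/-- the fine parts of the items of kind `a` -/
def fine (a : Kind r) (M : Multiset (Kind r × ℤ)) : Multiset ℤ :=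
  (M.filter (fun i => i.1 = a)).map (fun i => i.2)

theorem fine_add (a : Kind r) (M N : Multiset (Kind r × ℤ)) :
    fine a (M + N) = fine a M + fine a N := by
  simp [fine, Multiset.filter_add]

theorem fine_exact (g : Fin r) (t : ℤ × ℤ × ℤ) : fine (some (g, false)) (exact g t) = {t.1} + {t.2.1} ∧
    fine (some (g, true)) (exact g t) = {t.2.2} := by
  unfold fine exact
  constructor
  · rw [Multiset.filter_add, Multiset.filter_add, Multiset.filter_singleton,
      Multiset.filter_singleton, Multiset.filter_singleton]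
    simp
  · rw [Multiset.filter_add, Multiset.filter_add, Multiset.filter_singleton,
      Multiset.filter_singleton, Multiset.filter_singleton]
    simp

theorem UPack.mono_add {X Y X' Y' : Multiset ℤ} {S : Multiset (ℤ × ℤ × ℤ)} (h : UPack X Y S) :
    UPack (X' + X) (Y' + Y) S :=
  ⟨h.1, h.2.1.trans (Multiset.le_add_left _ _), h.2.2.trans (Multiset.le_add_left _ _)⟩

theorem UPack.cons_add {X Y : Multiset ℤ} {S : Multiset (ℤ × ℤ × ℤ)} (h : UPack X Y S)
    {t : ℤ × ℤ × ℤ} (ht : t.1 + t.2.1 + t.2.2 ≤ 0) :
    UPack ({t.1} + {t.2.1} + X) ({t.2.2} + Y) (t ::ₘ S) := by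
  obtain ⟨h1, h2, h3⟩ := h
  refine ⟨?_, ?_, ?_⟩
  · intro u hu
    rcases Multiset.mem_cons.1 hu with rfl | hu
    · exact ht
    · exact h1 u hu
  · rw [Multiset.map_cons, Multiset.map_cons]
    have : t.1 ::ₘ Multiset.map (fun t => t.1) S + t.2.1 ::ₘ Multiset.map (fun t => t.2.1) S
        = ({t.1} + {t.2.1}) + (Multiset.map (fun t => t.1) S + Multiset.map (fun t => t.2.1) S) := by
      rw [← Multiset.singleton_add, ← Multiset.singleton_add]
      abel
    rw [this]
    exact add_le_add_right h2 _
  · rw [Multiset.map_cons, ← Multiset.singleton_add]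
    exact add_le_add_right h3 _

theorem price_exact (g : Fin r) (t : ℤ × ℤ × ℤ) : price (exact g t) = 4 * r + 2 := by
  have hg := g.2
  unfold price exact
  simp only [Multiset.map_add, Multiset.map_singleton, Multiset.sum_add, Multiset.sum_singleton, lev]
  omega

theorem bins {B Φ : ℤ} (hΦ : 0 ≤ Φ) (hB : (cap r + 1) * Φ < B)
    (P : Multiset (Multiset (Kind r × ℤ)))
    (h : ∀ M ∈ P, (∀ i ∈ M, -Φ ≤ i.2) ∧ tot B M ≤ cap r * B) :
    ∃ S : Fin r → Multiset (ℤ × ℤ × ℤ),
      (∀ g, UPack (fine (some (g, false)) P.join) (fine (some (g, true)) P.join) (S g)) ∧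
      price P.join ≤ (4 * r + 1) * P.card + ∑ g, (S g).card := by
  induction P using Multiset.induction with
  | empty =>
    refine ⟨fun _ => 0, fun g => ⟨by simp, by simp, by simp⟩, by simp [price]⟩
  | cons M P ih =>
    obtain ⟨S, hS, hle⟩ := ih (fun N hN => h N (by simp [hN]))
    obtain ⟨hM1, hM2⟩ := h M (by simp)
    rcases bin_cases hΦ hB M hM1 hM2 with h1 | ⟨g, t, rfl, ht⟩
    · refine ⟨S, fun g => ?_, ?_⟩
      · rw [Multiset.join_cons, fine_add, fine_add]
        exact UPack.mono_add (hS g)
      · rw [Multiset.join_cons, price_add, Multiset.card_cons]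
        linarith
    · refine ⟨Function.update S g (t ::ₘ S g), fun g' => ?_, ?_⟩
      · rw [Multiset.join_cons, fine_add, fine_add]
        by_cases hg : g' = g
        · subst hg
          rw [Function.update_self, (fine_exact g' t).1, (fine_exact g' t).2]
          exact UPack.cons_add (hS g') ht
        · rw [Function.update_of_ne hg]
          exact UPack.mono_add (hS g')
      · rw [Multiset.join_cons, price_add, Multiset.card_cons, price_exact]
        have e : ∑ g', (Function.update S g (t ::ₘ S g) g').card = ∑ g', (S g').card + 1 := by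
          rw [← Finset.add_sum_erase _ _ (Finset.mem_univ g),
            ← Finset.add_sum_erase _ (fun g' => (S g').card) (Finset.mem_univ g),
            Function.update_self, Multiset.card_cons]
          have : ∑ x ∈ Finset.univ.erase g, (Function.update S g (t ::ₘ S g) x).card =
              ∑ x ∈ Finset.univ.erase g, (S x).card := by
            refine Finset.sum_congr rfl (fun x hx => ?_)
            rw [Function.update_of_ne (Finset.ne_of_mem_erase hx)]
          rw [this]
          ring
        rw [e]
        linarith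

end Vale.Agent.P302.Half
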