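import Vale.Agent.P302.H831.Lower
import Vale.Agent.P302.H877.OuterNode

/-!
# The outer node with `r` gadgets: the instance and its fractional solution
-/

namespace Vale.Agent.P302.Half

open Vale.Agent.P302

variable {r : ℕ}

/-- a grain of sand -/
def sand : Kind r × ℤ := (none, 0)

/-- the items of the `g`-th gadget -/
def gad (X Y : Multiset ℤ) (g : Fin r) : Multiset (Kind r × ℤ) :=
  X.map (fun x => (some (g, false), x)) + Y.map (fun y => (some (g, true), y))

/-- the instance -/
def items (r : ℕ) (X Y : Multiset ℤ) (U : ℕ) : Multiset (Kind r × ℤ) :=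
  ∑ g : Fin r, gad X Y g + Multiset.replicate U sand

theorem fine_map (a b : Kind r) (X : Multiset ℤ) :
    fine a (X.map (fun x => (b, x))) = if b = a then X else 0 := by
  unfold fine
  rw [Multiset.filter_map, Multiset.map_map]
  by_cases h : b = a
  · subst h
    simp [Function.comp_def]
  · simp [Function.comp_def, h]

theorem fine_sum (a : Kind r) (s : Finset (Fin r)) (f : Fin r → Multiset (Kind r × ℤ)) :
    fine a (∑ g ∈ s, f g) = ∑ g ∈ s, fine a (f g) := by
  induction s using Finset.induction_on with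
  | empty => simp [fine]
  | insert g s hg ih => rw [Finset.sum_insert hg, Finset.sum_insert hg, fine_add, ih]

theorem fine_items (X Y : Multiset ℤ) (U : ℕ) (g : Fin r) :
    fine (some (g, false)) (items r X Y U) = X ∧ fine (some (g, true)) (items r X Y U) = Y := by
  have hs : ∀ i : Fin r × Bool, fine (some i) (Multiset.replicate U (sand (r := r))) = 0 := by
    intro i
    unfold fine
    rw [Multiset.filter_eq_nil.2, Multiset.map_zero]
    intro x hx
    rw [Multiset.eq_of_mem_replicate hx]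
    simp [sand]
  constructor
  · rw [items, fine_add, hs, fine_sum, add_zero]
    simp only [gad, fine_add, fine_map]
    rw [Finset.sum_eq_single g]
    · simp
    · intro b _ hb
      simp [hb]
    · simp
  · rw [items, fine_add, hs, fine_sum, add_zero]
    simp only [gad, fine_add, fine_map]
    rw [Finset.sum_eq_single g]
    · simp
    · intro b _ hb
      simp [hb]
    · simp

/-- the level sum of the gadget items -/
def pN (r : ℕ) (X Y : Multiset ℤ) : ℕ := price (∑ g : Fin r, gad X Y g)

theorem price_replicate (k : ℕ) : price (Multiset.replicate k (sand (r := r))) = k := by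
  unfold price
  rw [Multiset.map_replicate, Multiset.sum_replicate]
  simp [sand, lev]

theorem price_items (X Y : Multiset ℤ) (U : ℕ) : price (items r X Y U) = pN r X Y + U := by
  rw [items, price_add, price_replicate]
  rfl

theorem price_nsmul (q : ℕ) (M : Multiset (Kind r × ℤ)) : price (q • M) = q * price M := by
  unfold price
  rw [Multiset.map_nsmul, Multiset.sum_nsmul, smul_eq_mul]

theorem price_join (P : Multiset (Multiset (Kind r × ℤ))) : price P.join = (P.map price).sum := by
  induction P using Multiset.induction with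
  | empty => simp [price]
  | cons M P ih => rw [Multiset.join_cons, price_add, Multiset.map_cons, Multiset.sum_cons, ih]

theorem mem_items {X Y : Multiset ℤ} {U : ℕ} {i : Kind r × ℤ} (h : i ∈ items r X Y U) :
    i.2 ∈ X ∨ i.2 ∈ Y ∨ i.2 = 0 := by
  unfold items at h
  rw [Multiset.mem_add] at h
  rcases h with h | h
  · rw [Multiset.mem_sum] at h
    obtain ⟨g, _, h⟩ := h
    unfold gad at h
    rw [Multiset.mem_add] at h
    rcases h with h | h
    · obtain ⟨x, hx, rfl⟩ := Multiset.mem_map.1 h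
      exact Or.inl hx
    · obtain ⟨x, hx, rfl⟩ := Multiset.mem_map.1 h
      exact Or.inr (Or.inl hx)
  · rw [Multiset.eq_of_mem_replicate h]
    exact Or.inr (Or.inr rfl)

theorem mm_pos : 1 ≤ mm r := by
  have hA := AA_pos (r := r)
  unfold mm
  have : 1 ≤ AA r ^ 3 := one_le_pow₀ (by linarith)
  linarith

theorem lev_le (k : Kind r) : lev k ≤ 4 * r + 1 := by
  rcases k with _ | ⟨g, _ | _⟩
  · simp only [lev]; omega
  · have := g.2
    simp only [lev]
    omega
  · simp only [lev]
    omega

/-- one item together with sand fills a bin of level `A - 1` and fits with room to spare -/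
theorem pat_macro (k : Kind r) :
    mac k + ((4 * r + 1 - lev k : ℕ) : ℤ) * mac (none : Kind r) ≤ cap r - 1 := by
  have hA := AA_pos (r := r)
  have hm := mm_pos (r := r)
  rw [Nat.cast_sub (lev_le k)]
  have e1 : mac (none : Kind r) = AA r * mm r - 1 := rfl
  have e2 : ((4 * r + 1 : ℕ) : ℤ) = AA r - 1 := by unfold AA; push_cast; ring
  rw [e1, e2]
  rcases k with _ | ⟨g, t⟩
  · simp only [mac, lev, cap]
    push_cast
    linarith
  · have hd := del_upper g t
    have hl : (1 : ℤ) ≤ lev (some (g, t)) := by exact_mod_cast lev_pos (some (g, t))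
    have hl2 : (lev (some (g, t)) : ℤ) ≤ AA r - 1 := by
      rw [← e2]
      exact_mod_cast lev_le (some (g, t))
    simp only [mac, cap]
    generalize (lev (some (g, t)) : ℤ) = l at *
    have h1 : 1 + AA r ^ 3 ≤ mm r := by
      unfold mm
      have : 1 ≤ AA r ^ 3 := one_le_pow₀ (by linarith)
      linarith
    have h2 : mm r ≤ l * mm r := by nlinarith
    nlinarith

theorem cap_pos : 1 ≤ cap r := by
  have h := pat_macro (none : Kind r)
  have h1 := mac_pos (none : Kind r)
  have h2 : 0 ≤ ((4 * r + 1 - lev (none : Kind r) : ℕ) : ℤ) * mac (none : Kind r) := by positivity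
  linarith

theorem mac_le (k : Kind r) : mac k ≤ cap r - 1 := by
  have h := pat_macro k
  have h1 := mac_pos (none : Kind r)
  have h2 : 0 ≤ ((4 * r + 1 - lev k : ℕ) : ℤ) * mac (none : Kind r) := by positivity
  linarith

/-- the macro unit -/
def BB (r Φ : ℕ) : ℤ := (cap r + 2) * ((Φ : ℤ) + 1)

/-- the sizes as natural numbers -/
def size (B : ℤ) (i : Kind r × ℤ) : ℕ := (mac i.1 * B + i.2).toNat

theorem size_sum (B : ℤ) (M : Multiset (Kind r × ℤ)) (h : ∀ i ∈ M, 0 ≤ mac i.1 * B + i.2) :
    (((M.map (size B)).sum : ℕ) : ℤ) = tot B M := by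
  induction M using Multiset.induction with
  | empty => simp [tot]
  | cons i M ih =>
    have h1 := ih (fun j hj => h j (by simp [hj]))
    have h2 := h i (by simp)
    unfold tot at h1 ⊢
    rw [Multiset.map_cons, Multiset.sum_cons, Multiset.map_cons, Multiset.sum_cons, ← h1]
    push_cast
    congr 1
    exact Int.toNat_of_nonneg h2

/-- the capacity -/
def LL (r Φ : ℕ) : ℕ := (cap r * BB r Φ).toNat

theorem BB_pos (r Φ : ℕ) : 0 < BB r Φ := by
  have := cap_pos (r := r)
  unfold BB
  positivity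

theorem LL_cast (r Φ : ℕ) : (LL r Φ : ℤ) = cap r * BB r Φ :=
  Int.toNat_of_nonneg (mul_nonneg (by linarith [cap_pos (r := r)]) (BB_pos r Φ).le)

theorem LL_pos (r Φ : ℕ) : 0 < LL r Φ := by
  have h1 := LL_cast r Φ
  have h2 : 0 < cap r * BB r Φ := mul_pos (by linarith [cap_pos (r := r)]) (BB_pos r Φ)
  omega

/-- the list of items -/
noncomputable def lst (r : ℕ) (X Y : Multiset ℤ) (U : ℕ) : List (Kind r × ℤ) :=
  (items r X Y U).toList

section

variable {X Y : Multiset ℤ} {U Φ : ℕ}

theorem lst_coe : (lst r X Y U : Multiset (Kind r × ℤ)) = items r X Y U :=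
  Multiset.coe_toList _

theorem item_bd (h : ∀ x ∈ X + Y, -(Φ : ℤ) ≤ x ∧ x ≤ Φ) :
    ∀ i ∈ items r X Y U, -(Φ : ℤ) ≤ i.2 ∧ i.2 ≤ Φ := by
  intro i hi
  rcases mem_items hi with h' | h' | h'
  · exact h i.2 (by simp [h'])
  · exact h i.2 (by simp [h'])
  · rw [h']
    constructor <;> omega

theorem Phi_lt : (Φ : ℤ) < BB r Φ := by
  have := cap_pos (r := r)
  unfold BB
  nlinarith [Int.natCast_nonneg Φ]

theorem item_pos (h : ∀ x ∈ X + Y, -(Φ : ℤ) ≤ x ∧ x ≤ Φ) : ∀ i ∈ items r X Y U,
    0 < mac i.1 * BB r Φ + i.2 ∧ mac i.1 * BB r Φ + i.2 ≤ cap r * BB r Φ := by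
  intro i hi
  have h1 := item_bd h i hi
  have h2 := mac_le i.1
  have h3 := mac_pos i.1
  have h4 := Phi_lt (r := r) (Φ := Φ)
  have h5 := BB_pos r Φ
  constructor
  · nlinarith
  · nlinarith

theorem sum_iff (h : ∀ x ∈ X + Y, -(Φ : ℤ) ≤ x ∧ x ≤ Φ) (M : Multiset (Kind r × ℤ))
    (hM : ∀ i ∈ M, i ∈ items r X Y U) :
    (M.map (size (BB r Φ))).sum ≤ LL r Φ ↔ tot (BB r Φ) M ≤ cap r * BB r Φ := by
  rw [← LL_cast, ← size_sum (BB r Φ) M (fun i hi => (item_pos h i (hM i hi)).1.le)]
  exact_mod_cast Iff.rfl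

theorem sizes_ok (h : ∀ x ∈ X + Y, -(Φ : ℤ) ≤ x ∧ x ≤ Φ) :
    ∀ x ∈ (lst r X Y U).map (size (BB r Φ)), 0 < x ∧ x ≤ LL r Φ := by
  intro x hx
  obtain ⟨i, hi, rfl⟩ := List.mem_map.1 hx
  have hi' : i ∈ items r X Y U := by rw [← lst_coe]; exact hi
  have h1 := item_pos h i hi'
  have h2 := LL_cast r Φ
  unfold size
  omega

/-- the lower bound for the number of bins -/
theorem lower (h : ∀ x ∈ X + Y, -(Φ : ℤ) ≤ x ∧ x ≤ Φ) {T N : ℕ}
    (hU : ∀ S, UPack X Y S → Multiset.card S ≤ T)
    (hN : (4 * r + 1) * N + r * T < pN r X Y + U) :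
    ¬ Packable (inst (LL r Φ) ((lst r X Y U).map (size (BB r Φ)))) N := by
  intro hpack
  obtain ⟨P, hPc, hPj, hPs⟩ := tpack_of_packable (LL_pos r Φ) (size (BB r Φ)) (lst r X Y U) hpack
  rw [lst_coe] at hPj
  have hmem : ∀ M ∈ P, ∀ i ∈ M, i ∈ items r X Y U := by
    intro M hM i hi
    rw [← hPj]
    exact Multiset.mem_join.2 ⟨M, hM, hi⟩
  obtain ⟨S, hS, hle⟩ := bins (B := BB r Φ) (Φ := (Φ : ℤ)) (by positivity)
    (by
      have := cap_pos (r := r)
      unfold BB
      nlinarith [Int.natCast_nonneg Φ]) P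
    (fun M hM => ⟨fun i hi => (item_bd h i (hmem M hM i hi)).1,
      (sum_iff h M (hmem M hM)).1 (hPs M hM)⟩)
  rw [hPj, price_items, hPc] at hle
  have h1 : ∑ g : Fin r, (S g).card ≤ ∑ _g : Fin r, T := by
    refine Finset.sum_le_sum (fun g _ => hU _ ?_)
    have := hS g
    rwa [hPj, (fine_items X Y U g).1, (fine_items X Y U g).2] at this
  rw [Finset.sum_const, Finset.card_univ, Fintype.card_fin, smul_eq_mul] at h1
  omega

end

end Vale.Agent.P302.Half
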